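import Vale.Agent.P014T.Rb.Rub
import Vale.Agent.P014T.Dr.Cy

/-! # P014T, block Rb: the character of a discrete logarithm -/

set_option autoImplicit false
set_option linter.all false

noncomputable section

namespace Vale.Agent.P014T.Rb

open NumberField
open Vale.Agent.P022 Vale.Agent.P022K
open Vale.Agent.P022D.W (dec inP_le_dec exists_phi)
open Vale.Agent.P022.H443 (inP)
open Vale.Agent.P022E.GW (Ov Fb)
open Vale.Agent.P004S.Ga (K O)
open Vale.Agent.P004S.Aq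
open Vale.Agent.P004F.Rc
open Vale.Agent.P014T.Dr (Hm ex_cy root_cong inert_Hm Hm_open)

variable {n l p : ℕ} {lam : ZMod l → ZMod (2 ^ n)} {χ : GQ → ZMod (2 ^ n)} {P : Ideal (𝓞 Qb)}
  {g φ : GQ}

/-- `lam` is a logarithm on the units modulo `l` and `χ` is its Galois character -/
structure Lx (l n : ℕ) (lam : ZMod l → ZMod (2 ^ n)) (χ : GQ → ZMod (2 ^ n)) : Prop where
  pr : l.Prime
  mul : ∀ a b, a ≠ 0 → b ≠ 0 → lam (a * b) = lam a + lam b
  eq : ∀ (g : GQ) (a : ℕ), (∀ z : Qb, z ^ l = 1 → g z = z ^ a) → χ g = lam a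

theorem ex_exp (hl : l.Prime) (g : GQ) :
    ∃ a : ℕ, (a : ZMod l) ≠ 0 ∧ ∀ z : Qb, z ^ l = 1 → g z = z ^ a := by
  have := Fact.mk hl
  obtain ⟨ζ, κ, h1, h2, -, -⟩ := ex_cy l
  refine ⟨(κ g : ZMod l).val, by rw [ZMod.natCast_zmod_val]; exact Units.ne_zero _, fun z hz => ?_⟩
  obtain ⟨i, -, rfl⟩ := h1.eq_pow_of_pow_eq_one hz
  rw [map_pow, h2, ← pow_mul, ← pow_mul, mul_comm]

theorem ex_lx (hl : l.Prime) (mul : ∀ a b, a ≠ 0 → b ≠ 0 → lam (a * b) = lam a + lam b) :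
    ∃ χ, Lx l n lam χ := by
  have := Fact.mk hl
  obtain ⟨ζ, κ, h1, -, -, h4⟩ := ex_cy l
  exact ⟨fun g => lam (κ g), hl, mul, fun g a e => by rw [h4 g a (e ζ h1.pow_eq_one)]⟩

/-- the value in `K ⧸ O` -/
def lq (lam : ZMod l → ZMod (2 ^ n)) (a : ℤ) : K ⧸ O := mq (hn n * (lam a).val)

theorem mq_val_add (a b : ZMod (2 ^ n)) :
    mq (hn n * (a + b).val) = mq (hn n * a.val) + mq (hn n * b.val) := by
  rw [← map_add, ← mul_add, ← Nat.cast_add, mul_comm, mul_comm (hn n)]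
  exact mq_mod (O_of O_one (hn_mul n)) (by rw [ZMod.val_add]; exact Nat.mod_modEq _ _)

theorem mq_val_zero {a : ZMod (2 ^ n)} : mq (hn n * a.val) = 0 ↔ a = 0 := by
  rw [mq_zero, nat_iff, ← ZMod.natCast_eq_zero_iff, ZMod.natCast_zmod_val]

theorem dvd_val {a : ZMod (2 ^ n)} : 2 ^ n ∣ a.val ↔ a = 0 := by
  rw [← ZMod.natCast_eq_zero_iff, ZMod.natCast_zmod_val]

namespace Lx

variable (h : Lx l n lam χ)
include h

theorem one : lam 1 = 0 := by
  have := Fact.mk h.pr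
  simpa using h.mul 1 1 one_ne_zero one_ne_zero

theorem add (g j : GQ) : χ (g * j) = χ g + χ j := by
  obtain ⟨a, a0, ha⟩ := ex_exp h.pr g
  obtain ⟨b, b0, hb⟩ := ex_exp h.pr j
  rw [h.eq g a ha, h.eq j b hb, ← h.mul _ _ a0 b0, ← Nat.cast_mul]
  exact h.eq _ _ fun z hz => by rw [AlgEquiv.mul_apply, hb z hz, map_pow, ha z hz, pow_mul]

theorem hm (m : g ∈ Hm l) : χ g = 0 := by
  rw [h.eq g 1 fun z hz => (m z hz).trans (pow_one z).symm, Nat.cast_one, h.one]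

theorem lc : IsLocallyConstant χ :=
  P004S.lc_of_open (Hm_open h.pr.ne_zero) (Hm l).one_mem fun g w m => by rw [h.add, h.hm m, add_zero]

theorem ch : Ch n fun g => (χ g).val := Ch.of h.lc h.add

theorem nd (o : Ov p P) (pl : p ≠ l) : ¬ p ∣ l := fun d =>
  pl ((Nat.prime_dvd_prime_iff_eq o.1 h.pr).1 d)

theorem ur (o : Ov p P) (pl : p ≠ l) (m : g ∈ inP P) : χ g = 0 := h.hm (inert_Hm o (h.nd o pl) m)

theorem fb (o : Ov p P) (pl : p ≠ l) (f : Fb p P φ) : χ φ = lam p :=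
  h.eq φ p fun z hz => root_cong o (h.nd o pl) f hz

/-- the character is trivial on the decomposition group -/
theorem dz (o : Ov p P) (pl : p ≠ l) (e : lam p = 0) (m : g ∈ dec P) : χ g = 0 := by
  obtain ⟨φ, f⟩ := exists_phi o.1 o.2.1 o.2.2
  exact mq_val_zero.1 (mq_zero.2 (h.ch.ad.unr o f
    (fun i m => mq_zero.1 (mq_val_zero.2 (h.ur o pl m)))
    (mq_zero.1 (mq_val_zero.2 ((h.fb o pl f).trans e))) m))

theorem tl (o : Ov 2 P) (l2 : l ≠ 2) (e : lam 2 = 0) : Tl n l (fun g => (χ g).val) P (lq lam) :=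
  ⟨h.ch, o, l2, fun g m => dvd_val.2 (h.dz o l2.symm (by exact_mod_cast e) m),
    fun p P o pl i m => dvd_val.2 (h.ur o pl m), fun a b ha hb => by
      rw [lq, Int.cast_mul, h.mul _ _ (mt (ZMod.intCast_zmod_eq_zero_iff_dvd a l).1 ha)
        (mt (ZMod.intCast_zmod_eq_zero_iff_dvd b l).1 hb), mq_val_add, lq, lq],
    mq_val_zero.2 (by exact_mod_cast e), fun p hp _ pl => by
      obtain ⟨Q, oq⟩ := GW.Pl.ex_ov hp
      obtain ⟨φ, f⟩ := exists_phi oq.1 oq.2.1 oq.2.2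
      exact ⟨Q, φ, oq, f, by rw [lq, h.fb oq pl f, Int.cast_natCast]⟩⟩

end Lx

end Vale.Agent.P014T.Rb
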