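import Vale.Agent.P004Z.Ar.The
import Vale.Agent.P004Z.H.Glob
import Vale.Agent.P027H.Unif

/-! # P014T, block Rb: the square of the theta function and the factor `cc` -/

set_option autoImplicit false
set_option linter.all false

open Filter Topology Complex
open scoped Classical Real ComplexConjugate

noncomputable section

namespace Vale.Agent.P014T.Rb

open Vale.Agent.P004H.H666 Vale.Agent.P004Z Vale.Agent.P004Z.H Vale.Agent.P004Z.Ar
open Vale.Agent.P027H (IsLat wp dwp mem_of_eq)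

/-- the uniformisation with the square of the theta function -/
structure Vs (A B : ℤ) where
  Λ : Submodule ℤ ℂ
  ex : ℂ →+ EC A B
  S : ℂ → ℂ
  b : ℝ
  surj : Function.Surjective ex
  ker : ∀ u, ex u = 0 ↔ u ∈ Λ
  ne : ∀ u, S u ≠ 0
  zero : S 0 = 1
  even : ∀ u, S (-u) = S u
  par : ∀ u v, cc (ex u) (ex v) * (S u ^ 2 * S v ^ 2) = S (u + v) * S (u - v)
  law : ∀ l ∈ Λ, ∀ u, S (u + l) = cexp (2 * b * conj l * (u + l / 2)) * S u
  bas : ∃ (w1 w2 : ℂ) (k : ℤ), Odd k ∧ (∀ z, z ∈ Λ ↔ ∃ m n : ℤ, z = m * w1 + n * w2) ∧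
    b * (conj w1 * w2 - conj w2 * w1) = k * (2 * π * I)

namespace Vn

variable {Λ : Submodule ℤ ℂ} {θ : ℂ → ℂ} {b : ℝ}

theorem eta (hL : IsLat Λ) (h : Th Λ θ b) {l : ℂ} (hl : l ∈ Λ) : ∃ η : ℂ, η ^ 2 = 1 ∧
    (l / 2 ∉ Λ → η = -1) ∧ ∀ u, θ (u + l) = η * cexp (b * conj l * (u + l / 2)) * θ u := by
  obtain ⟨η, -, k⟩ := h.law l hl
  obtain ⟨c, -, hc, -⟩ := hL.exists_two
  refine ⟨η, ?_, fun h2 => ?_, k⟩
  · have k1 := k c
    have k2 := k (-(c + l))
    rw [show -(c + l) + l = -c by ring, h.odd, h.odd, k1] at k2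
    have e : cexp (b * conj l * (-(c + l) + l / 2)) * cexp (b * conj l * (c + l / 2)) = 1 := by
      rw [← Complex.exp_add, show b * conj l * (-(c + l) + l / 2) + b * conj l * (c + l / 2) = 0 by
        ring, Complex.exp_zero]
    refine mul_right_cancel₀ (h.ne' hc) ?_
    linear_combination k2 - η ^ 2 * θ c * e
  · have k1 := k (-(l / 2))
    rw [show -(l / 2) + l = l / 2 by ring, neg_add_cancel, mul_zero, Complex.exp_zero, h.odd] at k1
    refine mul_right_cancel₀ (h.ne' h2) ?_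
    linear_combination k1

theorem bas (hL : IsLat Λ) (h : Th Λ θ b) : ∃ (w1 w2 : ℂ) (k : ℤ), Odd k ∧
    (∀ z, z ∈ Λ ↔ ∃ m n : ℤ, z = m * w1 + n * w2) ∧
    b * (conj w1 * w2 - conj w2 * w1) = k * (2 * π * I) := by
  obtain ⟨c, -, hc, -⟩ := hL.exists_two
  have hL' := hL
  obtain ⟨L, rfl⟩ := hL'
  have hl := LinearIndependent.pair_iff.1 L.indep
  have hf : ∀ s t : ℤ, (Odd s ∨ Odd t) → (s * L.ω₁ + t * L.ω₂) / 2 ∉ L.lattice := by
    intro s t o e
    obtain ⟨m, n, e⟩ := PeriodPair.mem_lattice.1 e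
    have := hl ((2 * m - s : ℤ) : ℝ) ((2 * n - t : ℤ) : ℝ) (by
      simp only [Complex.real_smul]
      push_cast
      linear_combination 2 * e)
    have h1 : 2 * m - s = 0 := by exact_mod_cast this.1
    have h2 : 2 * n - t = 0 := by exact_mod_cast this.2
    rcases o with ⟨x, o⟩ | ⟨x, o⟩ <;> omega
  obtain ⟨η1, -, a1, k1⟩ := eta hL h L.ω₁_mem_lattice
  obtain ⟨η2, -, a2, k2⟩ := eta hL h L.ω₂_mem_lattice
  obtain ⟨η3, -, a3, k3⟩ := eta hL h (add_mem L.ω₁_mem_lattice L.ω₂_mem_lattice)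
  obtain rfl := a1 (by simpa using hf 1 0 (Or.inl odd_one))
  obtain rfl := a2 (by simpa using hf 0 1 (Or.inr odd_one))
  obtain rfl := a3 (by simpa using hf 1 1 (Or.inl odd_one))
  have e := k3 c
  rw [← add_assoc, k2, k1] at e
  have e2 : cexp (b * conj L.ω₂ * (c + L.ω₁ + L.ω₂ / 2)) * cexp (b * conj L.ω₁ * (c + L.ω₁ / 2)) *
      cexp (b * (conj L.ω₁ * L.ω₂ - conj L.ω₂ * L.ω₁) / 2) =
      cexp (b * conj (L.ω₁ + L.ω₂) * (c + (L.ω₁ + L.ω₂) / 2)) := by
    rw [← Complex.exp_add, ← Complex.exp_add, map_add]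
    congr 1
    ring
  have e3 : cexp (b * (conj L.ω₁ * L.ω₂ - conj L.ω₂ * L.ω₁) / 2) = cexp (π * I) := by
    rw [Complex.exp_pi_mul_I]
    refine mul_left_cancel₀ (mul_ne_zero (mul_ne_zero
      (exp_ne_zero (b * conj L.ω₂ * (c + L.ω₁ + L.ω₂ / 2)))
      (exp_ne_zero (b * conj L.ω₁ * (c + L.ω₁ / 2)))) (h.ne' hc)) ?_
    linear_combination e + θ c * e2
  obtain ⟨n, hn⟩ := Complex.exp_eq_exp_iff_exists_int.1 e3
  refine ⟨L.ω₁, L.ω₂, 2 * n + 1, ⟨n, rfl⟩, fun z => by simp only [PeriodPair.mem_lattice, eq_comm], ?_⟩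
  push_cast
  linear_combination 2 * hn

theorem cst {X X' Z Z' : ℂ → ℂ} (h1 : Continuous X) (h2 : Continuous Z) (h3 : Continuous X')
    (h4 : Continuous Z') : Continuous fun u => st (X u) (Z u) (X' u) (Z' u) := by
  refine continuous_pi fun i => ?_
  fin_cases i <;> simp [st] <;> fun_prop

theorem cFF (A B : ℂ) : Continuous (FF A B) := by
  refine continuous_pi fun i => ?_
  fin_cases i <;> simp [FF] <;> fun_prop

theorem st_smul (s t x z x' z' : ℂ) :
    st (s * x) (s * z) (t * x') (t * z') = (s * t) • st x z x' z' := by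
  ext i
  fin_cases i <;> simp [st] <;> ring

end Vn

open Vn

theorem ex_vs {A B : ℤ} (hD : 4 * A ^ 3 + 27 * B ^ 2 ≠ 0) : Nonempty (Vs A B) := by
  have hD' : 16 * (4 * (A : ℂ) ^ 3 + 27 * (B : ℂ) ^ 2) ≠ 0 :=
    mul_ne_zero (by norm_num) (by exact_mod_cast hD)
  obtain ⟨Λ, hL, -, -, ex', sj, ker', xy⟩ := P027H.exists_unif (A : ℂ) (B : ℂ) (by exact_mod_cast hD)
  let ex : ℂ →+ EC A B := ex'
  have ker : ∀ u, ex u = 0 ↔ u ∈ Λ := ker'
  have xe : ∀ u, u ∉ Λ → xp (ex u) = wp Λ u := fun u k => by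
    have k1 := (xy u).1
    have k3 := mt (ker' u).1 k
    change xp (A := (A : ℂ)) (B := (B : ℂ)) (ex' u) = _
    generalize ex' u = Q at k1 k3
    rcases Q with _ | ⟨x, y, n⟩
    · exact absurd rfl k3
    · exact k1
  obtain ⟨θ, b, h⟩ := the Λ hL
  obtain ⟨v0, -, hv, -⟩ := hL.exists_two
  have a := h.an.continuous
  let G : ℂ → ℂ := fun u => θ u ^ 2 * wp Λ v0 - θ (u + v0) * θ (u - v0) / θ v0 ^ 2
  let S : ℂ → ℂ := fun u => if u ∈ Λ then G u else θ u ^ 2
  have cG : Continuous G := by fun_prop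
  have z0 := (h.zero 0).2 Λ.zero_mem
  have lθ : ∀ l ∈ Λ, ∀ u v, θ (u + l + v) * θ (u + l - v) =
      cexp (2 * b * conj l * (u + l / 2)) * (θ (u + v) * θ (u - v)) := fun l hl u v => by
    obtain ⟨η, n, -, k⟩ := eta hL h hl
    have e : cexp (b * conj l * (u + v + l / 2)) * cexp (b * conj l * (u - v + l / 2)) =
        cexp (2 * b * conj l * (u + l / 2)) := by
      rw [← Complex.exp_add]
      congr 1
      ring
    rw [add_right_comm, add_sub_right_comm, k, k, ← e]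
    linear_combination (cexp (b * conj l * (u + v + l / 2)) * cexp (b * conj l * (u - v + l / 2)) *
      θ (u + v) * θ (u - v)) * n
  have l0 : ∀ l ∈ Λ, ∀ u, θ (u + l) ^ 2 = cexp (2 * b * conj l * (u + l / 2)) * θ u ^ 2 :=
    fun l hl u => by simpa only [add_zero, sub_zero, ← sq] using lθ l hl u 0
  have law : ∀ l ∈ Λ, ∀ u, S (u + l) = cexp (2 * b * conj l * (u + l / 2)) * S u := fun l hl u => by
    simp only [S, Λ.add_mem_iff_left hl]
    split_ifs
    · simp only [G]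
      rw [lθ l hl, l0 l hl]
      ring
    · exact l0 l hl u
  have S0 : S 0 = 1 := by
    have := h.ne' hv
    simp only [S, G, if_pos Λ.zero_mem, z0, zero_add, zero_sub, h.odd]
    field_simp
    ring
  have ne : ∀ u, S u ≠ 0 := fun u => by
    by_cases k : u ∈ Λ
    · have := law u k 0
      rw [zero_add u, S0, mul_one] at this
      exact this ▸ exp_ne_zero _
    · simp only [S, if_neg k]
      exact pow_ne_zero _ (h.ne' k)
  have eX : ∀ u, G u = S u * xp (ex u) := fun u => by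
    by_cases k : u ∈ Λ
    · simp only [S, if_pos k, (ker u).2 k, xp_zero, mul_one]
    · have := h.ne' k
      have := h.ne' hv
      simp only [S, if_neg k, xe u k, G]
      rw [sub_eq_iff_eq_add.1 (h.sub hL k hv)]
      field_simp
      ring
  have eZ : ∀ u, θ u ^ 2 = S u * zp (ex u) := fun u => by
    by_cases k : u ∈ Λ
    · simp [(ker u).2 k, (h.zero u).2 k]
    · simp only [S, if_neg k, zp_one (mt (ker u).1 k), mul_one]
  have red : ∀ u v, FF (A : ℂ) B (st (G u) (θ u ^ 2) (G v) (θ v ^ 2)) =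
        (cc (ex u) (ex v) * (S u ^ 2 * S v ^ 2)) •
          st (xp (ex (u + v))) (zp (ex (u + v))) (xp (ex (u - v))) (zp (ex (u - v))) ∧
      st (G (u + v)) (θ (u + v) ^ 2) (G (u - v)) (θ (u - v) ^ 2) = (S (u + v) * S (u - v)) •
          st (xp (ex (u + v))) (zp (ex (u + v))) (xp (ex (u - v))) (zp (ex (u - v))) := fun u v => by
    refine ⟨?_, by rw [eX, eX, eZ, eZ, st_smul]⟩
    rw [eX, eX, eZ, eZ, st_smul, FF_smul, (cc_spec hD' _ _).2, smul_smul, map_add, map_sub]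
    congr 1
    ring
  have c2 : Continuous fun u => θ u ^ 2 := by fun_prop
  have gen : ∀ u v, FF (A : ℂ) B (st (G u) (θ u ^ 2) (G v) (θ v ^ 2)) =
      st (G (u + v)) (θ (u + v) ^ 2) (G (u - v)) (θ (u - v) ^ 2) := by
    have cn := Te.cnt hL
    have g1 : ∀ v, v ∉ Λ → ∀ u, FF (A : ℂ) B (st (G u) (θ u ^ 2) (G v) (θ v ^ 2)) =
        st (G (u + v)) (θ (u + v) ^ 2) (G (u - v)) (θ (u - v) ^ 2) := fun v k => by
      refine congrFun (Continuous.ext_on
        ((cn.union ((cn.image (· - v)).union (cn.image (· + v)))).dense_compl ℂ)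
        ((cFF _ _).comp (cst cG c2 continuous_const continuous_const))
        (cst (cG.comp (by fun_prop)) (c2.comp (f := fun u => u + v) (by fun_prop))
          (cG.comp (by fun_prop)) (c2.comp (f := fun u => u - v) (by fun_prop))) fun u hu => ?_)
      have k0 : u ∉ Λ := fun e => hu (Or.inl e)
      have k1 : u + v ∉ Λ := fun e => hu (Or.inr (Or.inl ⟨_, e, add_sub_cancel_right _ _⟩))
      have k2 : u - v ∉ Λ := fun e => hu (Or.inr (Or.inr ⟨_, e, sub_add_cancel _ _⟩))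
      change FF (A : ℂ) B (st (G u) (θ u ^ 2) (G v) (θ v ^ 2)) =
        st (G (u + v)) (θ (u + v) ^ 2) (G (u - v)) (θ (u - v) ^ 2)
      rw [(red u v).1, (red u v).2, cc_aff (mt (ker u).1 k0) (mt (ker v).1 k)
        (map_add ex u v ▸ mt (ker _).1 k1) (map_sub ex u v ▸ mt (ker _).1 k2), xe u k0, xe v k,
        h.sub hL k0 k]
      have := h.ne' k0
      have := h.ne' k
      simp only [S, if_neg k0, if_neg k, if_neg k1, if_neg k2]
      congr 1
      field_simp
    intro u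
    refine congrFun (Continuous.ext_on (cn.dense_compl ℂ)
      ((cFF _ _).comp (cst continuous_const continuous_const cG c2))
      (cst (cG.comp (by fun_prop)) (c2.comp (f := fun v => u + v) (by fun_prop))
        (cG.comp (by fun_prop)) (c2.comp (f := fun v => u - v) (by fun_prop))) fun v hv => g1 v hv u)
  refine ⟨⟨Λ, ex, S, b, sj, ker, ne, S0, fun u => ?_, fun u v => ?_, law, bas hL h⟩⟩
  · simp only [S, neg_mem_iff, G, h.odd, neg_sq]
    rw [show -u + v0 = -(u - v0) by ring, show -u - v0 = -(u + v0) by ring, h.odd, h.odd]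
    congr 2
    ring
  · have e := gen u v
    rw [(red u v).1, (red u v).2] at e
    exact smul_left_injective ℂ (st_ne (xz_ne _) (xz_ne _)) e

end Vale.Agent.P014T.Rb
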