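import Vale.Agent.P014T.Ki.Abs

/-! # P014T, block Rb: the obstruction cocycle of a first order deformation -/

set_option autoImplicit false
set_option linter.all false

noncomputable section

namespace Vale.Agent.P014T.Rb

open NumberField
open Vale.Agent.P022 Vale.Agent.P022K
open Vale.Agent.P022D.W (dec inP_le_dec)
open Vale.Agent.P022.H443 (inP)
open Vale.Agent.P022E.GW (Ov Fb)
open Vale.Agent.P004S.Ga (K O d2 d3 Z2 B2)
open Vale.Agent.P004S.Aq
open Vale.Agent.P004F.Rc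
open Vale.Agent.P014T.Ki (tor_map tor_add tor_neg)

variable {M : Type} [AddCommGroup M]

/-- an action with a pairing on the elements of order `2 ^ n` -/
structure Pw (ρ : GQ → M →+ M) (w : M → M → K) (n : ℕ) : Prop where
  mul : ∀ g h x, ρ (g * h) x = ρ g (ρ h x)
  lc : ∀ x, IsLocallyConstant fun g => ρ g x
  addl : ∀ {x x' y}, 2 ^ n • x = 0 → 2 ^ n • x' = 0 → 2 ^ n • y = 0 →
    mq (w (x + x') y) = mq (w x y) + mq (w x' y)
  addr : ∀ {x y y'}, 2 ^ n • x = 0 → 2 ^ n • y = 0 → 2 ^ n • y' = 0 →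
    mq (w x (y + y')) = mq (w x y) + mq (w x y')
  act : ∀ {x y} g, 2 ^ n • x = 0 → 2 ^ n • y = 0 → mq (cy g * w x y) = mq (w (ρ g x) (ρ g y))

theorem pw_of {ρ : GQ → M →+ M} {w : ℕ → M → M → K} (H : Ki.Pr ρ w) (n : ℕ) : Pw ρ (w n) n :=
  ⟨H.mul, H.lc, H.addl, H.addr, H.act⟩

/-- the cup product -/
def cu (ρ : GQ → M →+ M) (w : M → M → K) (x y : GQ → M) (g h : GQ) : K := w (x g) (ρ g (y h))

/-- the cup product with an additive character -/
def cx (c : GQ → ℕ) (φ : GQ → K) (g h : GQ) : K := c g * (cy g * φ h)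

/-- locally constant functions of order `2 ^ n` -/
structure Cn (n : ℕ) (x : GQ → M) : Prop where
  lc : IsLocallyConstant x
  tor : ∀ g, 2 ^ n • x g = 0

/-- cocycles on `D` -/
def Co (ρ : GQ → M →+ M) (D : Subgroup GQ) (x : GQ → M) : Prop :=
  ∀ g ∈ D, ∀ h ∈ D, x (g * h) = x g + ρ g (x h)

/-- additive characters modulo `2 ^ n` -/
structure Ch (n : ℕ) (c : GQ → ℕ) : Prop where
  lc : IsLocallyConstant c
  add : ∀ g h, c (g * h) ≡ c g + c h [MOD 2 ^ n]

/-- the data: `z0 + ε z1` is a cocycle for `(1 + c ε) ρ`, and `d φ = z0 ∪ a` -/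
structure Rd (ρ : GQ → M →+ M) (w : M → M → K) (n : ℕ) (c : GQ → ℕ) (z0 z1 a : GQ → M)
    (φ : GQ → K) : Prop where
  pw : Pw ρ w n
  ch : Ch n c
  t0 : ∀ g, 2 ^ n • z0 g = 0
  c1 : Cn n z1
  ca : Cn n a
  co : Co ρ ⊤ a
  dz : ∀ g h, z1 (g * h) = z1 g + ρ g (z1 h) + c g • ρ g (z0 h)
  cont : Continuous φ
  lev : ∀ g, 2 ^ n * φ g ∈ O
  dφ : ∀ g h, φ g + cy g * φ h - φ (g * h) - w (z0 g) (ρ g (a h)) ∈ O

variable {ρ : GQ → M →+ M} {w : M → M → K} {n : ℕ} {c : GQ → ℕ} {z0 z1 a x y : GQ → M}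
  {φ : GQ → K} {D : Subgroup GQ} {s t : M}

theorem mq_nat (k : ℕ) (u : K) : mq (k * u) = k • mq u := by rw [← map_nsmul, nsmul_eq_mul]

theorem mq_cy (g : GQ) {u v : K} (h : mq u = mq v) : mq (cy g * u) = mq (cy g * v) :=
  mq_eq.2 (O_of (O_mul (O_cy g) (mq_eq.1 h)) (by ring))

theorem mq_mod {u : K} (h : 2 ^ n * u ∈ O) {i j : ℕ} (e : i ≡ j [MOD 2 ^ n]) :
    mq (i * u) = mq (j * u) := by
  obtain ⟨k, e⟩ := e.dvd
  have e' : (j : K) - i = 2 ^ n * k := by exact_mod_cast congrArg (Int.cast : ℤ → K) e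
  exact mq_eq.2 (O_of (neg_mem (O_mul h (intCast_mem (PadicInt.subring 2) k)))
    (by linear_combination (-u) * e'))

theorem Ch.of {χ : GQ → ZMod (2 ^ n)} (lc : IsLocallyConstant χ)
    (add : ∀ g h, χ (g * h) = χ g + χ h) : Ch n fun g => (χ g).val :=
  ⟨lc.comp _, fun g h => by
    rw [← ZMod.natCast_eq_natCast_iff, Nat.cast_add, ZMod.natCast_zmod_val, ZMod.natCast_zmod_val,
      ZMod.natCast_zmod_val, add]⟩

theorem Ch.ad (h : Ch n c) : Ad D fun g => hn n * c g :=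
  ⟨(h.lc.comp fun k : ℕ => hn n * (k : K)).continuous.continuousOn, fun g _ j _ => by
    have := mq_eq.1 (mq_mod (u := hn n) (O_of O_one (hn_mul n)) (h.add g j))
    exact O_of this (by push_cast; ring)⟩

theorem cx_zero (h : ∀ g, 2 ^ n * φ g ∈ O) {g : GQ} (e : 2 ^ n ∣ c g) (j : GQ) : cx c φ g j ∈ O := by
  obtain ⟨k, e⟩ := e
  exact O_of (O_mul (O_mul (O_nat k) (O_cy g)) (h j)) (by rw [cx, e]; push_cast; ring)

namespace Pw

variable (H : Pw ρ w n)
include H

theorem zl (b : 2 ^ n • t = 0) : mq (w 0 t) = 0 := by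
  simpa using H.addl (smul_zero _) (smul_zero _) b

theorem zr (b : 2 ^ n • t = 0) : mq (w t 0) = 0 := by
  simpa using H.addr b (smul_zero _) (smul_zero _)

theorem nl (k : ℕ) (a : 2 ^ n • s = 0) (b : 2 ^ n • t = 0) : mq (w (k • s) t) = k • mq (w s t) := by
  induction k with
  | zero => rw [zero_nsmul, zero_nsmul, H.zl b]
  | succ k ih => rw [succ_nsmul, H.addl (by rw [smul_comm, a, smul_zero]) a b, ih, succ_nsmul]

theorem subr {t' : M} (a : 2 ^ n • s = 0) (b : 2 ^ n • t = 0) (b' : 2 ^ n • t' = 0) :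
    mq (w s (t - t')) = mq (w s t) - mq (w s t') := by
  rw [eq_sub_iff_add_eq, ← H.addr a (by rw [smul_sub, b, b', sub_zero]) b', sub_add_cancel]

theorem lc2 (hy : IsLocallyConstant y) : IsLocallyConstant fun p : GQ × GQ => ρ p.1 (y p.2) :=
  (IsLocallyConstant.iff_eventually_eq _).2 fun p => by
    filter_upwards [(hy.comp_continuous continuous_snd).eventually_eq p,
      ((H.lc (y p.2)).comp_continuous continuous_fst).eventually_eq p] with q e1 e2
    exact (congrArg (ρ q.1) e1).trans e2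

theorem cont (hx : IsLocallyConstant x) (hy : IsLocallyConstant y) :
    Continuous fun p : GQ × GQ => cu ρ w x y p.1 p.2 :=
  (((hx.comp_continuous continuous_fst).prodMk (H.lc2 hy)).comp fun z => w z.1 z.2).continuous

/-- the cup product of two cocycles -/
theorem z2 (hx : Cn n x) (hy : Cn n y) (cx : Co ρ D x) (cy' : Co ρ D y) : Z2 cy D (cu ρ w x y) := by
  refine ⟨(H.cont hx.lc hy.lc).continuousOn, fun g hg h hh k hk => mq_zero.1 ?_⟩
  simp only [d3, cu, map_add mq, map_sub mq]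
  rw [H.act g (hx.tor _) (tor_map (hy.tor _) h), cx g hg h hh, cy' h hh k hk, map_add (ρ g), H.mul,
    H.addl (hx.tor _) (tor_map (hx.tor _) g) (tor_map (tor_map (hy.tor _) h) g),
    H.addr (hx.tor _) (tor_map (hy.tor _) g) (tor_map (tor_map (hy.tor _) h) g)]
  abel

/-- the cup product with a coboundary -/
theorem b2 (hx : Cn n x) (cx : Co ρ D x) (ht : 2 ^ n • t = 0) (e : ∀ g ∈ D, y g = ρ g t - t) :
    B2 cy D (cu ρ w x y) := by
  refine ⟨fun g => -w (x g) (ρ g t), Continuous.continuousOn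
    ((hx.lc.prodMk (H.lc t)).comp fun z => -w z.1 z.2).continuous, fun g hg h hh => mq_zero.1 ?_⟩
  simp only [d2, cu, map_add mq, map_sub mq, mul_neg, map_neg mq]
  rw [e h hh, map_sub, H.act g (hx.tor _) (tor_map ht h), cx g hg h hh, H.mul,
    H.addl (hx.tor _) (tor_map (hx.tor _) g) (tor_map (tor_map ht h) g),
    H.subr (hx.tor _) (tor_map (tor_map ht h) g) (tor_map ht g)]
  abel

/-- the cup product is commutative for a skew pairing -/
theorem swap (sk : ∀ s t, 2 ^ n • s = 0 → 2 ^ n • t = 0 → mq (w s t) = -mq (w t s))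
    (hx : Cn n x) (hy : Cn n y) (cx : Co ρ D x) (cy' : Co ρ D y) :
    B2 cy D fun g h => cu ρ w x y g h - cu ρ w y x g h := by
  refine ⟨fun g => -w (x g) (y g), Continuous.continuousOn
    ((hx.lc.prodMk hy.lc).comp fun z => -w z.1 z.2).continuous, fun g hg h hh => mq_zero.1 ?_⟩
  simp only [d2, cu, map_add mq, map_sub mq, mul_neg, map_neg mq]
  rw [H.act g (hx.tor _) (hy.tor _), cx g hg h hh, cy' g hg h hh,
    H.addl (hx.tor _) (tor_map (hx.tor _) g) (tor_add (hy.tor _) (tor_map (hy.tor _) g)),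
    H.addr (hx.tor _) (hy.tor _) (tor_map (hy.tor _) g),
    H.addr (tor_map (hx.tor _) g) (hy.tor _) (tor_map (hy.tor _) g),
    sk _ _ (tor_map (hx.tor h) g) (hy.tor g)]
  abel

end Pw

/-- twice a cocycle is trivial at infinity -/
theorem b2_inf {z : GQ → GQ → K} (v : InfinitePlace Qb) (h : Z2 cy ⊤ z) :
    B2 cy (G2.St (G2.ip v)) fun g j => 2 * z g j := by
  obtain ⟨k, -, k2, e, -⟩ := G2.ex_cc v
  have cz : Continuous fun p : GQ × GQ => z p.1 p.2 := continuousOn_univ.1 (by simpa using h.cont)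
  refine ⟨fun g => z g 1 + z g k, Continuous.continuousOn
    ((cz.comp (Continuous.prodMk_left 1)).add (cz.comp (Continuous.prodMk_left k))),
    fun g _ j hj => ?_⟩
  have h1 := h.coc g trivial j trivial 1 trivial
  have h2 := h.coc g trivial j trivial k trivial
  refine O_of (neg_mem (add_mem h1 h2)) ?_
  rcases (e j).1 hj with rfl | rfl
  · simp only [d2, d3, mul_one, one_mul]; ring
  · simp only [d2, d3, mul_one, k2]; ring

theorem z2_two {z : GQ → GQ → K} (h : Z2 cy D z) : Z2 cy D fun g j => 2 * z g j :=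
  ⟨continuousOn_const.mul h.cont, fun g hg j hj k hk =>
    O_of (O_mul O_two (h.coc g hg j hj k hk)) (by simp only [d3]; ring)⟩

theorem b2_two {z : GQ → GQ → K} (h : B2 cy D z) : B2 cy D fun g j => 2 * z g j :=
  b2_congr (b2_add h h) fun g _ j _ => O_of (zero_mem _) (by ring)

/-- the obstruction -/
def dl (ρ : GQ → M →+ M) (w : M → M → K) (c : GQ → ℕ) (z1 a : GQ → M) (φ : GQ → K) (g h : GQ) :
    K := cu ρ w z1 a g h - cx c φ g h

namespace Rd

variable (R : Rd ρ w n c z0 z1 a φ)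
include R

theorem z2 : Z2 cy ⊤ (dl ρ w c z1 a φ) := by
  have H := R.pw
  refine ⟨Continuous.continuousOn ((H.cont R.c1.lc R.ca.lc).sub
    (((R.ch.lc.comp fun k : ℕ => (k : K)).continuous.comp continuous_fst).mul
      ((cy_cont.comp continuous_fst).mul (R.cont.comp continuous_snd)))),
    fun g _ h _ k _ => mq_zero.1 ?_⟩
  have t1 := R.c1.tor
  have ta := R.ca.tor
  have e1 : mq (d3 cy (cu ρ w z1 a) g h k) = -(c g • mq (w (ρ g (z0 h)) (ρ g (ρ h (a k))))) := by
    simp only [d3, cu, map_add mq, map_sub mq]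
    rw [H.act g (t1 _) (tor_map (ta _) h), R.dz, R.co h trivial k trivial, map_add (ρ g), H.mul,
      H.addl (tor_add (t1 _) (tor_map (t1 _) g)) (by rw [smul_comm, tor_map (R.t0 _) g, smul_zero])
        (tor_map (tor_map (ta _) h) g),
      H.addl (t1 _) (tor_map (t1 _) g) (tor_map (tor_map (ta _) h) g),
      H.addr (t1 _) (tor_map (ta _) g) (tor_map (tor_map (ta _) h) g),
      H.nl _ (tor_map (R.t0 _) g) (tor_map (tor_map (ta _) h) g)]
    abel
  have e2 : mq (d3 cy (cx c φ) g h k) = -(c g • mq (w (ρ g (z0 h)) (ρ g (ρ h (a k))))) := by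
    rw [← H.act g (R.t0 _) (tor_map (ta _) h), ← mq_cy g (mq_eq.2 (O_of (R.dφ h k) rfl)),
      ← mq_nat, ← map_neg, mq_eq]
    have := mq_eq.1 (mq_mod (u := cy (g * h) * φ k)
      (O_of (O_mul (O_cy (g * h)) (R.lev k)) (by ring)) (R.ch.add g h))
    refine O_of (neg_mem this) ?_
    simp only [d3, cx, map_mul]
    push_cast
    ring
  rw [show d3 cy (dl ρ w c z1 a φ) g h k = d3 cy (cu ρ w z1 a) g h k - d3 cy (cx c φ) g h k by
    simp only [d3, dl]; ring, map_sub, e1, e2, sub_self]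

theorem co1 (e : ∀ g ∈ D, 2 ^ n ∣ c g) : Co ρ D z1 := fun g hg h _ => by
  obtain ⟨k, e⟩ := e g hg
  rw [R.dz, e, mul_comm, mul_smul, tor_map (R.t0 _) g, smul_zero, add_zero]

/-- places where the character and the class of `a` are trivial -/
theorem bad (e : ∀ g ∈ D, 2 ^ n ∣ c g) (ht : 2 ^ n • t = 0) (k : ∀ g ∈ D, a g = ρ g t - t) :
    B2 cy D (dl ρ w c z1 a φ) :=
  b2_congr (R.pw.b2 R.c1 (R.co1 e) ht k) fun g hg h _ =>
    O_of (neg_mem (cx_zero R.lev (e g hg) h)) (by rw [dl]; ring)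

/-- unramified places -/
theorem good {p : ℕ} {P : Ideal (𝓞 Qb)} (o : Ov p P) (p2 : p ≠ 2)
    (u : ∀ i ∈ inP P, (∀ t : M, 2 ^ n • t = 0 → ρ i t = t) ∧ 2 ^ n ∣ c i ∧ z0 i = 0 ∧ z1 i = 0 ∧
      a i = 0 ∧ φ i ∈ O) : B2 cy (dec P) (dl ρ w c z1 a φ) := by
  have := unr1 (H := ⊤) (z := dl ρ w c z1 a φ) (by simp) o p2 le_top (z2_mono R.z2 le_top)
    fun g _ h _ i m => by
      obtain ⟨u1, u2, u3, u4, u5, u6⟩ := u i m
      constructor
      · have := mq_eq.1 (mq_mod (u := cy g * φ h) (O_of (O_mul (O_cy g) (R.lev h)) (by ring))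
          ((R.ch.add g i).trans ((Nat.ModEq.refl _).add ((Nat.modEq_zero_iff_dvd).2 u2))))
        refine O_of (neg_mem this) ?_
        simp only [dl, cu, cx, R.dz, u3, u4, map_zero, smul_zero, add_zero, R.pw.mul,
          u1 _ (R.ca.tor h), map_mul, cy_in o p2 m, mul_one]
        ring
      · have k := R.dφ h i
        rw [u5, map_zero] at k
        have := O_mul (O_mul (O_nat (c g)) (O_cy g)) (sub_mem (add_mem k (mq_zero.1
          (R.pw.zr (R.t0 h)))) (O_mul (O_cy h) u6))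
        refine O_of this ?_
        simp only [dl, cu, cx, R.co h trivial i trivial, u5, map_zero, add_zero]
        ring
  rwa [top_inf_eq] at this

end Rd

end Vale.Agent.P014T.Rb
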